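import Vale.Agent.P106.R.E.Defs
import Vale.Agent.P122.H518.ChainS

/-!
# P106 / R : E1, E2 (port of P122/H518/E12, helper518; port helper371)

* `cnt_hc_le` : `Cnt S X Z r → S.hc X Z ≤ r`;  `cnt_tame` : `Cnt S X one r → Tame X`.
* `unf_le_h` : `Unf S X r → Tame X → r ≤ S.h X`.
* `tre`, `cts` : a regular system of flags is an exact tree with the counts of `ChainS`.
* `e1 : E1`, `e2 : E2`.
-/

set_option autoImplicit false

namespace Vale.Agent.P106.R.H518

open Filter Topology Finset Vale.Agent.P127 Vale.Agent.P127.U Vale.Agent.P127.U.Sys Vale.Agent.P106.R.E Vale.Agent.P106.R.C2 Vale.Agent.P122.H518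

export Vale.Agent.P122.H518 (Tre Cts ftr fpr ffst fsnd frf)

/-! ### counts and entropies -/

theorem law_pos {Ω : Type} [Fintype Ω] (P : Law Ω) : ∃ ω, 0 < P.w ω := by
  by_contra hcon
  push Not at hcon
  have : ∑ ω, P.w ω ≤ 0 := Finset.sum_nonpos fun ω _ => hcon ω
  rw [P.sum_one] at this
  linarith

theorem fin_hc_le {Ω : Type} [Fintype Ω] (P : Law Ω) {α β : Type*} (X : Ω → α) (Z : Ω → β) (M : ℝ)
    (h : ∀ ω, 0 < P.w ω → ∃ U : Finset α, (U.card : ℝ) ≤ M ∧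
      ∀ ω', 0 < P.w ω' → Z ω' = Z ω → X ω' ∈ U) : Stk.hc P X Z ≤ Real.log M := by
  obtain ⟨ω0, hω0⟩ := law_pos P
  obtain ⟨U0, hU0, hU0'⟩ := h ω0 hω0
  have h1 : 1 ≤ U0.card := Finset.card_pos.2 ⟨_, hU0' ω0 hω0 rfl⟩
  have h2 : (1 : ℝ) ≤ M := by
    refine le_trans ?_ hU0
    exact_mod_cast h1
  have h3 : Stk.hc P X Z ≤ Real.log (⌊M⌋₊ : ℝ) := by
    refine Stk.hc_le_log P X Z ⌊M⌋₊ fun ω hω => ?_
    obtain ⟨U, hU, hU'⟩ := h ω hω
    exact ⟨U, Nat.le_floor hU, hU'⟩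
  refine h3.trans (Real.log_le_log ?_ (Nat.floor_le (by linarith)))
  have : 1 ≤ ⌊M⌋₊ := Nat.le_floor (by exact_mod_cast h2)
  exact_mod_cast this

variable {S : Sys} {α β γ : Type*}

theorem log_two_pow (x : ℝ) : Real.log ((2 : ℝ) ^ x) = x * Real.log 2 :=
  Real.log_rpow (by norm_num) x

theorem cnt_ev {X : S.RV α} {Z : S.RV β} {r : ℝ} (h : Cnt S X Z r) {ε : ℝ} (hε : 0 < ε) :
    ∀ᶠ i in (uf : Filter ℕ), Stk.hc (S.P i) (X i) (Z i) ≤ (r + ε) * S.nm i := by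
  filter_upwards [h ε hε] with i hi
  have h1 := fin_hc_le (S.P i) (X i) (Z i) _ hi
  rw [log_two_pow] at h1
  unfold Sys.nm
  linarith

theorem stk_hc_one {Ω : Type} [Fintype Ω] (P : Law Ω) (X : Ω → α) :
    Stk.hc P X (fun _ => ()) = P.H X := by
  unfold Stk.hc
  have h1 : P.H (fun _ : Ω => ()) = 0 := by
    have h2 : P.H (fun _ : Ω => ()) ≤ Real.log (Fintype.card Unit) := P.H_le_log_card _
    simp only [Fintype.card_unit, Nat.cast_one, Real.log_one] at h2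
    exact le_antisymm h2 (P.H_nonneg _)
  rw [h1, sub_zero]
  refine P.H_congr fun ω ω' => ?_
  simp

theorem cnt_tame {X : S.RV α} {r : ℝ} (h : Cnt S X (one (S := S)) r) : Tame X := by
  refine ⟨r + 1, ?_⟩
  filter_upwards [cnt_ev h one_pos] with i hi
  have h1 : Stk.hc (S.P i) (X i) ((one (S := S)) i) = (S.P i).H (X i) := stk_hc_one _ _
  rwa [h1] at hi

theorem ub_of_cnt {X : S.RV α} {Z : S.RV β} {r : ℝ} (h : Cnt S X Z r) :
    UB fun i => Stk.hc (S.P i) (X i) (Z i) / S.nm i := by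
  refine UB.of_le (C := r + 1) ?_ ?_
  · filter_upwards [S.nm_pos] with i hi
    exact div_nonneg (Stk.hc_nonneg _ _ _) hi.le
  · filter_upwards [S.nm_pos, cnt_ev h one_pos] with i hi h1
    rw [div_le_iff₀ hi]
    exact h1

/-- a count is an upper bound of the entropy -/
theorem cnt_hc_le {X : S.RV α} {Z : S.RV β} {r : ℝ} (h : Cnt S X Z r) : S.hc X Z ≤ r := by
  refine le_of_forall_pos_le_add fun ε hε => ?_
  refine ulim_le_const (ub_of_cnt h) ?_
  filter_upwards [S.nm_pos, cnt_ev h hε] with i hi h1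
  rw [div_le_iff₀ hi]
  exact h1

theorem fin_le_H {Ω : Type} [Fintype Ω] (P : Law Ω) (X : Ω → α) (x : ℝ)
    (h : ∀ ω, P.pr X (X ω) ≤ (2 : ℝ) ^ x) : -x * Real.log 2 ≤ P.H X := by
  have h1 : P.ex (fun _ => -x * Real.log 2) ≤ P.ex fun ω => -Real.log (P.pr X (X ω)) := by
    refine P.ex_mono fun ω hω => ?_
    have h2 := Real.log_le_log (P.pr_pos X hω) (h ω)
    rw [log_two_pow] at h2
    linarith
  rw [P.ex_const] at h1
  exact h1

/-- a uniform upper bound of the probabilities is a lower bound of the entropy -/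
theorem unf_le_h {X : S.RV α} {r : ℝ} (h : Unf S X r) (t : Tame X) : r ≤ S.h X := by
  refine le_of_forall_pos_le_add fun ε hε => ?_
  rw [← sub_le_iff_le_add]
  refine const_le_ulim (UB.hc t _) ?_
  filter_upwards [S.nm_pos, h ε hε] with i hi h1
  rw [le_div_iff₀ hi]
  have h2 : Stk.hc (S.P i) (X i) ((one (S := S)) i) = (S.P i).H (X i) := stk_hc_one _ _
  rw [h2]
  have h3 := fin_le_H (S.P i) (X i) _ h1
  unfold Sys.nm
  linarith

/-- the entropy of a uniform variable -/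
theorem unf_cnt_h {X : S.RV α} {r : ℝ} (h : Unf S X r) (h' : Cnt S X (one (S := S)) r) : S.h X = r :=
  le_antisymm (cnt_hc_le h') (unf_le_h h (cnt_tame h'))

/-! ### the relations of the tree -/

section flg

variable {K : ℕ} (F : Flg K)

theorem kids_div {n : ℕ} {τ τ' : Z2} (h : τ' ∈ kids n τ) (k : Fin 2) : τ k = τ' k / 2 ^ n := by
  have h1 := Fintype.mem_piFinset.1 h k
  rw [Finset.mem_Ico] at h1
  have h2 : (0 : ℤ) < 2 ^ n := by positivity
  symm
  rw [Int.ediv_eq_iff_of_pos h2]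
  constructor
  · linarith [h1.1, mul_comm (τ k) (2 ^ n)]
  · linarith [h1.2, mul_comm (τ k + 1) (2 ^ n)]

theorem F_YN (c : ℕ) : Sys.Fn (F.Y c) (F.N c) :=
  Eventually.of_forall fun _ _ _ _ _ e => congrArg Nd.τ e

theorem F_TN (c : ℕ) : Sys.Fn (F.T c) (F.N c) :=
  Eventually.of_forall fun _ _ _ _ _ e => congrArg Nd.T e

theorem F_gN (c : ℕ) : Sys.Fn (F.sg c) (F.N c) :=
  Eventually.of_forall fun i _ _ _ _ e => congrArg (Nd.sg (F.n i)) e

theorem F_NY {c : ℕ} (hc : c < K) : Sys.Fn (F.N (c + 1)) (Sys.pr (F.sg c) (F.Y (c + 1))) := by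
  refine Eventually.of_forall fun i ω ω' hω hω' e => ?_
  have e1 : (F.N c i ω).sg (F.n i) = (F.N c i ω').sg (F.n i) := congrArg Prod.fst e
  have e2 : (F.N (c + 1) i ω).τ = (F.N (c + 1) i ω').τ := congrArg Prod.snd e
  rw [(F.step i ω hω c hc).2, (F.step i ω' hω' c hc).2, e1, e2]

theorem F_YY {c : ℕ} (hc : c < K) : Sys.Fn (F.Y c) (F.Y (c + 1)) := by
  refine Eventually.of_forall fun i ω ω' hω hω' e => ?_
  have e2 : (F.N (c + 1) i ω).τ = (F.N (c + 1) i ω').τ := e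
  show (F.N c i ω).τ = (F.N c i ω').τ
  funext k
  rw [kids_div (F.step i ω hω c hc).1 k, kids_div (F.step i ω' hω' c hc).1 k, e2]

theorem F_T {c : ℕ} (hc : c < K) (i : ℕ) (ω : F.S.Ω i) (hω : 0 < (F.S.P i).w ω) :
    (F.N (c + 1) i ω).T = (F.N c i ω).T / 2 ^ (2 * F.n i) := by
  rw [(F.step i ω hω c hc).2]
  rfl

theorem F_TT {c : ℕ} (hc : c < K) : Sys.Fn (F.T (c + 1)) (F.T c) := by
  refine Eventually.of_forall fun i ω ω' hω hω' e => ?_
  have e2 : (F.N c i ω).T = (F.N c i ω').T := e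
  show (F.N (c + 1) i ω).T = (F.N (c + 1) i ω').T
  rw [F_T F hc i ω hω, F_T F hc i ω' hω', e2]

theorem F_o {c : ℕ} (hc : c < K) (i : ℕ) (ω : F.S.Ω i) (hω : 0 < (F.S.P i).w ω) (k : Fin 2) :
    (F.N (c + 1) i ω).o k = ⌊(((F.N c i ω).o k / 2 ^ F.n i : ℤ) : ℝ) -
      (((F.N c i ω).T % 2 ^ (2 * F.n i) : ℤ) : ℝ) * 2 ^ (2 * c * F.n i) *
        F.s i (c + 1) (F.N (c + 1) i ω).τ k / 2 ^ ((c + 1) * F.n i)⌋ := by
  have h := congrArg (fun q => Nd.o q k) (F.step i ω hω c hc).2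
  exact h

theorem F_gT {c : ℕ} (hc : c < K) : Sys.Fn (F.sg c) (Sys.pr (F.T c) (F.N (c + 1))) := by
  refine Eventually.of_forall fun i ω ω' hω hω' e => ?_
  have e1 : (F.N c i ω).T = (F.N c i ω').T := congrArg Prod.fst e
  have e2 : F.N (c + 1) i ω = F.N (c + 1) i ω' := congrArg Prod.snd e
  have e3 : (F.N c i ω).τ = (F.N c i ω').τ := by
    funext k
    rw [kids_div (F.step i ω hω c hc).1 k, kids_div (F.step i ω' hω' c hc).1 k, e2]
  have ho : (fun k => (F.N c i ω).o k / 2 ^ F.n i : Z2) = fun k => (F.N c i ω').o k / 2 ^ F.n i := by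
    funext k
    have h1 := F_o F hc i ω hω k
    have h2 := F_o F hc i ω' hω' k
    rw [e2, e1] at h1
    rw [h1] at h2
    rw [sub_eq_add_neg, sub_eq_add_neg, Int.floor_intCast_add, Int.floor_intCast_add] at h2
    exact add_right_cancel h2
  have hw : (F.N c i ω).w = (F.N c i ω').w := by
    have h1 := congrArg (fun q => Nd.w q) (F.step i ω hω c hc).2
    have h2 := congrArg (fun q => Nd.w q) (F.step i ω' hω' c hc).2
    simp only [Nd.ch, Nd.sg] at h1 h2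
    rw [e2, e1, e3, ho] at h1
    rw [h1] at h2
    exact add_right_cancel h2
  show (F.N c i ω).sg (F.n i) = (F.N c i ω').sg (F.n i)
  unfold Nd.sg
  rw [e1, e3, ho, hw]

/-- number of the time blocks -/
theorem F_cT {c : ℕ} (hK : 1 ≤ K) (hc : c < K) : Cnt F.S (F.T c) (F.T (c + 1)) (2 / K) := by
  intro ε hε
  refine Eventually.of_forall fun i ω hω => ?_
  refine ⟨Finset.Ico (2 ^ (2 * F.n i) * (F.N (c + 1) i ω).T) (2 ^ (2 * F.n i) * ((F.N (c + 1) i ω).T + 1)), ?_, ?_⟩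
  · rw [Int.card_Ico]
    have h1 : 2 ^ (2 * F.n i) * ((F.N (c + 1) i ω).T + 1) - 2 ^ (2 * F.n i) * (F.N (c + 1) i ω).T =
        ((2 ^ (2 * F.n i) : ℕ) : ℤ) := by
      push_cast
      ring
    rw [h1, Int.toNat_natCast]
    have hK' : (0 : ℝ) < K := by exact_mod_cast hK
    have h2 : ((2 ^ (2 * F.n i) : ℕ) : ℝ) = (2 : ℝ) ^ ((2 / K) * (F.S.L i : ℝ)) := by
      rw [F.L_eq i]
      push_cast
      have h3 : (2 : ℝ) / K * (K * F.n i) = ((2 * F.n i : ℕ) : ℝ) := by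
        push_cast
        field_simp
      rw [h3, Real.rpow_natCast]
    rw [h2]
    refine Real.rpow_le_rpow_of_exponent_le (by norm_num) ?_
    have h4 : (0 : ℝ) ≤ F.S.L i := Nat.cast_nonneg _
    nlinarith
  · intro ω' hω' e
    have e1 : (F.N (c + 1) i ω').T = (F.N (c + 1) i ω).T := e
    show (F.N c i ω').T ∈ _
    rw [Finset.mem_Ico, ← e1, F_T F hc i ω' hω']
    have h2 : (0 : ℤ) < 2 ^ (2 * F.n i) := by positivity
    constructor
    · exact Int.mul_ediv_self_le h2.ne'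
    · exact Int.lt_mul_ediv_self_add h2 |>.trans_eq (by ring)

theorem tre (hN : ∀ c, c ≤ K → Tame (F.N c)) : Tre F.S K F.N F.Y F.T F.sg where
  tN := hN
  YN := fun _ _ => F_YN F _
  TN := fun _ _ => F_TN F _
  gN := fun _ _ => F_gN F _
  NY := fun _ hc => F_NY F hc
  YY := fun _ hc => F_YY F hc
  TT := fun _ hc => F_TT F hc
  gT := fun _ hc => F_gT F hc

variable {F}

theorem cts {J θ H e : ℕ → ℝ} {W : ℕ → F.S.RV Vale.Agent.P106.W.Cbx} {kk jj : ℕ → ℕ → ℕ} (hK : 1 ≤ K) (R : RegA F J θ H e W kk jj) :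
    Cts F.S K F.N F.Y F.T F.sg H J θ where
  tre := tre F fun c hc => cnt_tame (R.N1 c hc)
  H0 := cnt_hc_le R.x1
  hJ := fun c hc => cnt_hc_le (R.kid c hc)
  hU := by
    refine unf_le_h R.flag ?_
    refine Tame.pr (cnt_tame R.x1) ?_
    exact (cnt_tame (R.N1 K le_rfl)).mono (F_YN F K)
  hN := fun c hc => unf_cnt_h (R.Nu c hc) (R.N1 c hc)
  hB := fun c hc => cnt_hc_le (R.B1 c hc)
  hT := fun _ hc => cnt_hc_le (F_cT F hK hc)

end flg

/-! ### E1, E2 -/

theorem nM_sub (J : ℕ → ℝ) {c d : ℕ} (h : c ≤ d) : ∑ k ∈ Ico c d, J k = nM J d - nM J c := by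
  have := sum_range_add_sum_Ico J h
  unfold nM
  linarith

/-- **E1** -/
theorem e1 : E1 := by
  intro K F J θ H e W kk jj hK R
  have h := cts hK R
  refine ⟨h.hN, ?_, ?_, ?_, ?_, ?_⟩
  · intro c d hcd hd
    rw [← nM_sub J hcd]
    exact (h.markov hcd hd).2
  · intro c d hcd hd
    rw [← nM_sub J hcd, ← (h.markov hcd hd).1]
    have hc := hcd.trans hd
    refine hc_congr (ffst _ _) (ffst _ _) ?_ ?_
    · exact fpr (ffst _ _) (ftr (h.tre.YN c hc) (fsnd _ _))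
    · exact fpr (ffst _ _) (h.tre.NxY le_rfl hc)
  · intro c d hcd hd
    rw [← nM_sub J hcd]
    exact (h.markov hcd hd).1
  · intro c hc
    exact h.hc_x_N hc
  · intro c d hcd hd
    have hc := hcd.trans hd
    have h1 := h.mi_N hcd hd
    have h2 := h.hc_x_N hc
    rw [← h1] at h2
    refine Eq.trans ?_ h2
    exact hc_congr (ffst _ _) (ffst _ _) (fpr (fsnd _ _) (ffst _ _)) (fpr (fsnd _ _) (ffst _ _))

/-- **E2** -/
theorem e2 : E2 := by
  intro K F J θ H e W kk jj hK R c d hcd hd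
  exact (cts hK R).En_mono hcd hd

end Vale.Agent.P106.R.H518
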