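import Vale.Agent.P106.R.H518.E12
import Vale.Agent.P106.R.H624.BoxB

/-!
# P106 / R / E6 = (A) : the step with a fat box, price `A` (helper518, port of P122/H518/E6)

* `diagA` : for `1 ≤ c ≤ j ≤ 2 c`, `2 (j - c) ≤ h`, `ν (jj c) < (2 c - j) / K` : `nV j ≤ nV c + (A + 1) D c j + 1 / K`
  (from `StBox A` of helper624).
* `D_shift` : `D c j ≤ D i j + 2 (i - c) / K` for `c ≤ i ≤ j`;  `H_back` : `H c ≤ H i + 4 (i - c) / K`.
* `e6_of : E3 → E4 A → E5 A C → E6 A (4 C + 2 A + 20)` (the box of level `c` is used for `j - 1`, so that it is strictly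
  fatter than the radius).
-/

set_option autoImplicit false

namespace Vale.Agent.P106.R.H518

open Filter Topology Finset Vale.Agent.P127 Vale.Agent.P127.Stk Vale.Agent.P127.U Vale.Agent.P127.U.Sys
  Vale.Agent.P106.R.C2 Vale.Agent.P106.R.E Vale.Agent.P106.R.E9
open Vale.Agent.P106.W (Cbx)

section gen

variable {S : Sys} {α β γ : Type*}

/-- the information is at most the entropy -/
theorem info_le {X : S.RV α} {Y : S.RV β} (tX : Tame X) (tY : Tame Y) :
    S.hc X (one (S := S)) - S.hc X Y ≤ S.hc Y (one (S := S)) := by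
  have h1 := hc_pair tX tY (one (S := S))
  have h2 := hc_pair tY tX (one (S := S))
  have h3 : S.hc (Sys.pr X Y) (one (S := S)) = S.hc (Sys.pr Y X) (one (S := S)) :=
    hc_congr (Eventually.of_forall fun _ _ _ _ _ e => by
        have e1 := congrArg (fun q => q.1.2) e
        have e2 := congrArg (fun q => q.1.1) e
        exact Prod.ext e1 e2)
      (Eventually.of_forall fun _ _ _ _ _ e => by
        have e1 := congrArg (fun q => q.1.2) e
        have e2 := congrArg (fun q => q.1.1) e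
        exact Prod.ext e1 e2)
      (frf _) (frf _)
  have h4 : S.hc Y (Sys.pr X (one (S := S))) = S.hc Y X :=
    hc_congr (ffst _ _) (ffst _ _) (fpr (frf _) (P122.H518.fone _)) (ffst _ _)
  have h5 : S.hc X (Sys.pr Y (one (S := S))) = S.hc X Y :=
    hc_congr (ffst _ _) (ffst _ _) (fpr (frf _) (P122.H518.fone _)) (ffst _ _)
  have h6 := hc_nonneg tY X
  rw [h4] at h1
  rw [h5] at h2
  linarith

end gen

section flg

variable {K : ℕ} {F : Flg K} {J θ H e : ℕ → ℝ} {W : ℕ → F.S.RV Cbx} {kk jj : ℕ → ℕ → ℕ}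

/-- bounds of the shape -/
theorem kj_ev (R : RegA F J θ H e W kk jj) {c : ℕ} (hc : c ≤ K) :
    ∀ᶠ i in (uf : Filter ℕ), kk c i ≤ jj c i ∧ jj c i ≤ c * F.n i := by
  filter_upwards [R.Wok c hc] with i hi
  obtain ⟨ω, hω⟩ := law_pos (F.S.P i)
  exact (hi ω hω).2.2.2.2

theorem nu_kk_le (R : RegA F J θ H e W kk jj) {c : ℕ} (hc : c ≤ K) :
    F.S.nu (kk c) ≤ F.S.nu (jj c) := by
  refine ulim_le (Bd.ub (H624.bd_kk R hc)) (Bd.ub (H624.bd_jj R hc)) ?_
  filter_upwards [kj_ev R hc] with i h2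
  refine div_le_div_of_nonneg_right ?_ (Nat.cast_nonneg _)
  exact_mod_cast h2.1

/-- a strictly smaller sequence is the minimum -/
theorem nu_min_eq (hK : 1 ≤ K) (R : RegA F J θ H e W kk jj) {c : ℕ} (hc : c ≤ K) {q : ℕ} (hqK : q ≤ K)
    (hq : F.S.nu (jj c) < (q : ℝ) / K) :
    (F.S.nu fun a => min (jj c a) (q * F.n a)) = F.S.nu (jj c) := by
  have h1 := Bd.ub (H624.bd_jj R hc)
  have h2 := Bd.ub (H624.bd_m F q hqK)
  have h3 : ulim (fun a => (jj c a : ℝ) / F.S.L a - ((q * F.n a : ℕ) : ℝ) / F.S.L a) < 0 := by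
    rw [ulim_sub h1 h2]
    have e1 : ulim (fun a => ((q * F.n a : ℕ) : ℝ) / F.S.L a) = (q : ℝ) / K := H624.nu_mul F hK q
    have e2 : ulim (fun a => (jj c a : ℝ) / F.S.L a) = F.S.nu (jj c) := rfl
    rw [e1, e2]
    linarith
  refine ulim_congr ?_
  filter_upwards [ulim_lt_eventually (h1.sub h2) h3, F.S.L_pos] with a h0 hL
  have hL' : (0:ℝ) < F.S.L a := by exact_mod_cast hL
  rw [← sub_div, div_lt_iff₀ hL', zero_mul, sub_neg] at h0
  have h4 : jj c a ≤ q * F.n a := by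
    have : (jj c a : ℝ) ≤ ((q * F.n a : ℕ) : ℝ) := h0.le
    exact_mod_cast this
  show ((min (jj c a) (q * F.n a) : ℕ) : ℝ) / F.S.L a = (jj c a : ℝ) / F.S.L a
  rw [min_eq_left h4]

/-- `D c j ≤ nE j - nE c` -/
theorem D_le_nE (hK : 1 ≤ K) (R : RegA F J θ H e W kk jj) {c j : ℕ} (hcj : c ≤ j) (hj : j ≤ K) :
    F.D c j ≤ nE K J θ H j - nE K J θ H c := by
  have h := cts hK R
  have h1 := h.En_sub hcj hj
  have h2 := h.Cn_ge hcj hj
  have h3 : Vale.Agent.P122.H518.Cts.Dn F.S K F.N F.T c j = F.D c j := rfl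
  have h4 : nE K J θ H j - nE K J θ H c = Vale.Agent.P122.H518.Cts.En K H J θ j - Vale.Agent.P122.H518.Cts.En K H J θ c := rfl
  rw [h4, h1, h3]
  linarith

/-- `D c j ≤ D i j + 2 (i - c) / K` -/
theorem D_shift (hK : 1 ≤ K) (R : RegA F J θ H e W kk jj) {c i j : ℕ} (hci : c ≤ i) (hij : i ≤ j)
    (hj : j ≤ K) : F.D c j ≤ F.D i j + 2 * ((i : ℝ) - c) / K := by
  have h := cts hK R
  have t1 := h.tre.tT (c := c) (by omega)
  have t2 := h.tre.tT (c := i) (by omega)
  have h1 : F.S.hc (F.T i) (F.N j) ≤ F.S.hc (F.T c) (F.N j) :=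
    hc_mono_left t1 t2 (ftr (h.tre.TT' hci (by omega)) (ffst _ _))
  unfold Flg.D
  have h2 : 2 * ((j : ℝ) - c) / K = 2 * ((j : ℝ) - i) / K + 2 * ((i : ℝ) - c) / K := by ring
  rw [h2]
  linarith

/-- a node given its piece -/
theorem cnt_N_sg (hK : 1 ≤ K) (F : Flg K) (c : ℕ) : Cnt F.S (F.N c) (F.sg c) (2 / K) := by
  classical
  intro ε hε
  refine Eventually.of_forall fun i ω hω => ?_
  refine ⟨(Fintype.piFinset fun k => Finset.Ico (2 ^ F.n i * (F.sg c i ω).o k)
    (2 ^ F.n i * ((F.sg c i ω).o k + 1))).image fun o =>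
      (⟨(F.sg c i ω).τ, o, (F.sg c i ω).T, (F.sg c i ω).w⟩ : Nd), ?_, ?_⟩
  · have h0 : (((Fintype.piFinset fun k => Finset.Ico (2 ^ F.n i * (F.sg c i ω).o k)
        (2 ^ F.n i * ((F.sg c i ω).o k + 1))).image fun o =>
          (⟨(F.sg c i ω).τ, o, (F.sg c i ω).T, (F.sg c i ω).w⟩ : Nd)).card : ℝ) ≤
        ((2 ^ (2 * F.n i) : ℕ) : ℝ) := by
      refine Nat.cast_le.2 (Finset.card_image_le.trans ?_)
      rw [Fintype.card_piFinset]
      have h1 : ∀ k : Fin 2, (Finset.Ico (2 ^ F.n i * (F.sg c i ω).o k)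
          (2 ^ F.n i * ((F.sg c i ω).o k + 1))).card = 2 ^ F.n i := by
        intro k
        rw [Int.card_Ico]
        have h2 : 2 ^ F.n i * ((F.sg c i ω).o k + 1) - 2 ^ F.n i * (F.sg c i ω).o k =
            ((2 ^ F.n i : ℕ) : ℤ) := by
          push_cast
          ring
        rw [h2, Int.toNat_natCast]
      rw [Finset.prod_congr rfl fun k _ => h1 k]
      simp only [Finset.prod_const, Finset.card_univ, Fintype.card_fin]
      rw [← pow_mul, mul_comm]
    refine h0.trans ?_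
    have hK' : (0 : ℝ) < K := by exact_mod_cast hK
    have h2 : ((2 ^ (2 * F.n i) : ℕ) : ℝ) = (2 : ℝ) ^ ((2 / K) * (F.S.L i : ℝ)) := by
      rw [F.L_eq i]
      push_cast
      have h3 : (2 : ℝ) / K * (K * F.n i) = ((2 * F.n i : ℕ) : ℝ) := by
        push_cast
        field_simp
      rw [h3, Real.rpow_natCast]
    rw [h2]
    refine Real.rpow_le_rpow_of_exponent_le (by norm_num) ?_
    have h4 : (0 : ℝ) ≤ F.S.L i := Nat.cast_nonneg _
    nlinarith
  · intro ω' hω' e'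
    have e1 : (F.N c i ω').sg (F.n i) = F.sg c i ω := e'
    rw [Finset.mem_image]
    refine ⟨(F.N c i ω').o, ?_, ?_⟩
    · rw [Fintype.mem_piFinset]
      intro k
      rw [Finset.mem_Ico, ← e1]
      have h2 : (0 : ℤ) < 2 ^ F.n i := by positivity
      constructor
      · exact Int.mul_ediv_self_le h2.ne'
      · exact Int.lt_mul_ediv_self_add h2 |>.trans_eq (by
          show _ = 2 ^ F.n i * ((F.N c i ω').o k / 2 ^ F.n i + 1)
          ring)
    · rw [← e1]
      rfl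

/-- one step back: `H c ≤ H (c + 1) + 4 / K` -/
theorem H_back_succ (hK : 1 ≤ K) (R : RegA F J θ H e W kk jj) {c : ℕ} (hc : c < K) :
    H c ≤ H (c + 1) + 4 / K := by
  have h := cts hK R
  have t1 := h.tre.tN c hc.le
  have t2 := h.tre.tN (c + 1) hc
  have h1 := info_le t1 t2
  have h2 := h.hc_NN_cut (Nat.le_succ c) hc
  have h3 : F.S.hc (F.T c) (F.N (c + 1)) ≤ F.S.hc (F.T c) (F.T (c + 1)) :=
    hc_mono_right (h.tre.tT hc.le) (h.tre.TN (c + 1) hc)
  have h4 := h.hT c hc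
  have h5 : F.S.hc (F.N c) (Sys.pr (F.T c) (F.N (c + 1))) ≤ F.S.hc (F.N c) (F.sg c) :=
    hc_mono_right t1 (h.tre.gT c hc)
  have h6 := cnt_hc_le (cnt_N_sg hK F c)
  have h7 : F.S.hc (F.N c) (one (S := F.S)) = H c := h.hN c hc.le
  have h8 : F.S.hc (F.N (c + 1)) (one (S := F.S)) = H (c + 1) := h.hN (c + 1) hc
  have h9 : (4 : ℝ) / K = 2 / K + 2 / K := by ring
  rw [h7, h8] at h1
  rw [h9]
  have h2' : F.S.hc (F.N c) (F.N (c + 1)) =
    F.S.hc (F.T c) (F.N (c + 1)) + F.S.hc (F.N c) (Sys.pr (F.T c) (F.N (c + 1))) := h2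
  linarith

/-- `H c ≤ H i + 4 (i - c) / K` -/
theorem H_back (hK : 1 ≤ K) (R : RegA F J θ H e W kk jj) {c i : ℕ} (hci : c ≤ i) (hi : i ≤ K) :
    H c ≤ H i + 4 * ((i : ℝ) - c) / K := by
  induction i, hci using Nat.le_induction with
  | base => simp
  | succ i hci ih =>
    have g1 := ih (by omega)
    have g2 := H_back_succ hK R (c := i) (by omega)
    have g3 : 4 * (((i + 1 : ℕ) : ℝ) - c) / K = 4 * ((i : ℝ) - c) / K + 4 / K := by
      push_cast
      ring
    rw [g3]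
    linarith

/-- **(A)** at its own level -/
theorem diagA {A : ℝ} (hB : StBox A) (hK : 1 ≤ K) (R : RegA F J θ H e W kk jj) {c j : ℕ} (hc1 : 1 ≤ c) (hcj : c ≤ j)
    (hj2 : j ≤ 2 * c) (hjK : j ≤ K) (hw : 2 * (j - c) ≤ F.h) (hα : ((j + 1 : ℕ) : ℝ) / K ≤ nα F jj c) :
    nV K H e j ≤ nV K H e c + (A + 1) * F.D c j + 1 / K := by
  have hKr : (0:ℝ) < (K : ℝ) := by exact_mod_cast hK
  have h := cts hK R
  have hcK := hcj.trans hjK
  have a9 : ((2 * c - j : ℕ) : ℝ) = 2 * (c : ℝ) - j := by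
    rw [Nat.cast_sub hj2]
    push_cast
    ring
  have hq : F.S.nu (jj c) < ((2 * c - j : ℕ) : ℝ) / K := by
    unfold nα at hα
    have h1 : (0:ℝ) < 1 / K := by positivity
    have h2 : (((j + 1 : ℕ) : ℝ)) / K = (j : ℝ) / K + 1 / K := by
      push_cast
      ring
    rw [a9, sub_div]
    rw [h2] at hα
    linarith
  have a1 := hB F J θ H e W kk jj hK R c j hc1 hcj hj2 hjK hw ((nu_kk_le R hcK).trans_lt hq)
  rw [nu_min_eq hK R hcK (by omega) hq] at a1
  have tN := h.tre.tN c hcK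
  have tV : Tame (vL F W c) := cnt_tame (R.W1 c hcK)
  have a2 := hc_nonneg tV (F.sig c j)
  linarith

/-- **E6 = (A)** from `StBox` and **E5** -/
theorem e6_box {A : ℝ} (hA : 0 ≤ A) (hB : StBox A) {C : ℝ} (h5 : E5 A C) : E6 A (4 * C + 2 * A + 20) := by
  intro K F J θ H e W kk jj hK R c i j hij hj2 hjK hjc hcK hw1 hw2 hw3 hα
  have hKp : (0 : ℝ) < K := by exact_mod_cast hK
  obtain ⟨l1, -, l3⟩ := h5 F J θ H e W kk jj hK R
  have hC : 0 ≤ C := by
    have := l1 0 0 (Nat.zero_le _) (Nat.zero_le _)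
    simp only [sub_self, abs_zero, mul_zero, zero_div, zero_add] at this
    by_contra hcon
    push Not at hcon
    have := div_neg_of_neg_of_pos hcon hKp
    linarith
  have hiK := hij.trans hjK
  have hCA : 0 ≤ 4 * C + 2 * A + 20 := by linarith
  rcases Nat.eq_or_lt_of_le hij with hij0 | hij1
  · subst hij0
    have q1 : 0 ≤ (4 * C + 2 * A + 20) * |(c : ℝ) - i| / K :=
      div_nonneg (mul_nonneg hCA (abs_nonneg _)) hKp.le
    have q2 : 0 ≤ (4 * C + 2 * A + 20) / K := div_nonneg hCA hKp.le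
    rw [sub_self, mul_zero]
    linarith
  · -- `j = j' + 1`
    obtain ⟨j', rfl⟩ : ∃ j', j = j' + 1 := ⟨j - 1, by omega⟩
    have hc1 : 1 ≤ c := by omega
    have hij' : i ≤ j' := by omega
    have hjK' : j' ≤ K := by omega
    have p1 : (4 * C + 2 * A + 20) / K = C / K + (C / K + (C / K + (1 / K + (C + 2 * A + 19) / K))) := by ring
    have p2 : 0 ≤ (C + 2 * A + 19) / K := div_nonneg (by linarith) hKp.le
    have pC : 0 ≤ C / K := div_nonneg hC hKp.le
    have p3 : (0 : ℝ) ≤ 1 / K := by positivity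
    have hjr : ((j' + 1 : ℕ) : ℝ) = (j' : ℝ) + 1 := by push_cast; ring
    rcases le_total c i with hci | hic
    · have g1 := diagA hB hK R hc1 (hci.trans hij') (by omega) hjK' (by omega) hα
      have g2 := D_shift hK R hci hij' hjK'
      have g3 := D_le_nE hK R hij' hjK'
      have g4 := H_back hK R hci hiK
      have g5 := l1 c i hcK hiK
      have g7 := l3 j' (j' + 1) (Nat.le_succ _) (by omega) hjK
      have hci' : (c : ℝ) ≤ i := by exact_mod_cast hci
      have e1 : |(c : ℝ) - i| = (i : ℝ) - c := by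
        rw [abs_sub_comm, abs_of_nonneg (sub_nonneg.2 hci')]
      rw [e1] at g5
      have g6 := (abs_le.1 g5).1
      rw [e1]
      have q0 : 0 ≤ ((i : ℝ) - c) / K := div_nonneg (sub_nonneg.2 hci') hKp.le
      have q1 : (4 * C + 2 * A + 20) * ((i : ℝ) - c) / K = (4 * C + 2 * A + 20) * (((i : ℝ) - c) / K) := by ring
      have q2 : C * ((i : ℝ) - c) / K = C * (((i : ℝ) - c) / K) := by ring
      have q3 : 4 * ((i : ℝ) - c) / K = 4 * (((i : ℝ) - c) / K) := by ring
      have q4 : 2 * ((i : ℝ) - c) / K = 2 * (((i : ℝ) - c) / K) := by ring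
      have q5 : 4 * (c : ℝ) / K = 4 * (i : ℝ) / K - 4 * (((i : ℝ) - c) / K) := by ring
      have q6 : 0 ≤ C * (((i : ℝ) - c) / K) := mul_nonneg hC q0
      have q8 : C * ((((j' + 1 : ℕ) : ℝ)) - j') / K = C / K := by
        rw [hjr]
        ring
      rw [q3] at g4
      rw [q4] at g2
      rw [q2] at g6
      rw [q8] at g7
      have g8 : (A + 1) * F.D c j' ≤ (A + 1) * (nE K J θ H j' - nE K J θ H i) + (A + 1) * (2 * (((i : ℝ) - c) / K)) := by
        rw [← mul_add]
        exact mul_le_mul_of_nonneg_left (by linarith) (by linarith)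
      have q9 : 0 ≤ A * (((i : ℝ) - c) / K) := mul_nonneg hA q0
      have q10 : (A + 1) * (nE K J θ H (j' + 1) - nE K J θ H i) = (A + 1) * (nE K J θ H (j' + 1) - nE K J θ H j') +
        (A + 1) * (nE K J θ H j' - nE K J θ H i) := by ring
      rw [q1, p1, q10]
      have q7 : (4 * C + 2 * A + 20) * (((i : ℝ) - c) / K) = C * (((i : ℝ) - c) / K) + 3 * (C * (((i : ℝ) - c) / K)) +
        2 * (A * (((i : ℝ) - c) / K)) + 20 * (((i : ℝ) - c) / K) := by ring
      have q11 : (A + 1) * (2 * (((i : ℝ) - c) / K)) = 2 * (A * (((i : ℝ) - c) / K)) + 2 * (((i : ℝ) - c) / K) := by ring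
      rw [q11] at g8
      rw [q7]
      have g9 : nV K H e c ≤ nV K H e i + C * (((i : ℝ) - c) / K) + C / K := by
        unfold nV
        linarith
      linarith
    · have hic' : (i : ℝ) ≤ c := by exact_mod_cast hic
      have e1 : |(c : ℝ) - i| = (c : ℝ) - i := abs_of_nonneg (sub_nonneg.2 hic')
      rw [e1]
      have q0 : 0 ≤ ((c : ℝ) - i) / K := div_nonneg (sub_nonneg.2 hic') hKp.le
      have q1 : (4 * C + 2 * A + 20) * ((c : ℝ) - i) / K = (4 * C + 2 * A + 20) * (((c : ℝ) - i) / K) := by ring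
      have q6 : 0 ≤ C * (((c : ℝ) - i) / K) := mul_nonneg hC q0
      have q9 : 0 ≤ A * (((c : ℝ) - i) / K) := mul_nonneg hA q0
      have q7 : (4 * C + 2 * A + 20) * (((c : ℝ) - i) / K) = C * (((c : ℝ) - i) / K) + 3 * (C * (((c : ℝ) - i) / K)) +
        2 * (A * (((c : ℝ) - i) / K)) + 20 * (((c : ℝ) - i) / K) := by ring
      rw [q1, q7, p1]
      rcases Nat.lt_or_ge j' c with hjc' | hcj
      · -- `j ≤ c`
        have g3 := l3 i (j' + 1) hij hj2 hjK
        have hjc'' : ((j' + 1 : ℕ) : ℝ) ≤ c := by exact_mod_cast hjc'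
        have q2 : C * ((((j' + 1 : ℕ) : ℝ)) - i) / K ≤ C * (((c : ℝ) - i) / K) := by
          rw [mul_div_assoc]
          exact mul_le_mul_of_nonneg_left (div_le_div_of_nonneg_right (by linarith) hKp.le) hC
        linarith
      · have g1 := diagA hB hK R hc1 hcj (by omega) hjK' (by omega) hα
        have g2 := D_le_nE hK R hcj hjK'
        have g3 := l3 i c hic (by omega) hcK
        have g7 := l3 j' (j' + 1) (Nat.le_succ _) (by omega) hjK
        have q2 : C * ((c : ℝ) - i) / K = C * (((c : ℝ) - i) / K) := by ring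
        have q8 : C * ((((j' + 1 : ℕ) : ℝ)) - j') / K = C / K := by
          rw [hjr]
          ring
        rw [q2] at g3
        rw [q8] at g7
        have g8 : (A + 1) * F.D c j' ≤ (A + 1) * (nE K J θ H j' - nE K J θ H c) :=
          mul_le_mul_of_nonneg_left g2 (by linarith)
        have q10 : (A + 1) * (nE K J θ H (j' + 1) - nE K J θ H i) = (A + 1) * (nE K J θ H (j' + 1) - nE K J θ H j') +
          ((A + 1) * (nE K J θ H j' - nE K J θ H c) + (A + 1) * (nE K J θ H c - nE K J θ H i)) := by ring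
        rw [q10]
        linarith

/-- **E6 = (A)** from **E3**, **E4** and **E5** -/
theorem e6_of {A C : ℝ} (hA : 0 ≤ A) (h3 : E3) (h4 : E4 A) (h5 : E5 A C) : E6 A (4 * C + 2 * A + 20) :=
  e6_box hA (H624.stBox e1 h3 h4) h5

end flg

end Vale.Agent.P106.R.H518
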